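import Vale.Agent.P186.Thin
import Vale.Agent.P194.Algebra

/-
Transfer to the Cayley graph; residually finite groups have stably finite group algebras over
finite fields.
-/

namespace Vale.Agent.P186

open Vale.Agent.P194 Classical

theorem finite_df {M : Type*} [Monoid M] [Finite M] {a b : M} (h : a * b = 1) : b * a = 1 := by
  have h1 : Function.Injective fun x => b * x := by
    intro x y hxy
    have := congrArg (a * ·) hxy
    simpa [← mul_assoc, h] using this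
  obtain ⟨c, hc⟩ := Finite.surjective_of_injective h1 1
  have : c = a := by
    have := congrArg (a * ·) hc
    simpa [← mul_assoc, h] using this
  rw [← this]
  exact hc

theorem rf_stably_finite {K G S : Type} [Field K] [Finite K] [Group G] [Group.ResiduallyFinite G]
    [Fintype S] [DecidableEq S] {A B : Matrix S S (MonoidAlgebra K G)} (h : A * B = 1) :
    B * A = 1 := by
  ext1 i j
  set d := (B * A) i j - (1 : Matrix S S (MonoidAlgebra K G)) i j with hd
  let T := d.coeff.support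
  have hsep : ∀ x : T × T, ∃ H : FiniteIndexNormalSubgroup G, x.1 ≠ x.2 →
      ((x.1 : G) : G ⧸ H.toSubgroup) ≠ ((x.2 : G) : G ⧸ H.toSubgroup) := by
    intro x
    by_cases hx : x.1 = x.2
    · exact ⟨FiniteIndexNormalSubgroup.ofSubgroup ⊤, fun h => absurd hx h⟩
    · obtain ⟨H, hH⟩ := Group.exists_finiteIndexNormalSubgroup_of_residuallyFinite (x.1 : G) x.2
        (fun h => hx (Subtype.ext h))
      exact ⟨H, fun _ => hH⟩
  choose H hH using hsep
  let Q := ∀ x : T × T, G ⧸ (H x).toSubgroup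
  let φ : G →* Q := MonoidHom.pi fun x => QuotientGroup.mk' (H x).toSubgroup
  have hφ : Set.InjOn φ T := by
    intro a ha b hb hab
    by_contra hne
    exact hH (⟨a, ha⟩, ⟨b, hb⟩) (fun h => hne (congrArg Subtype.val h))
      (congrFun hab (⟨a, ha⟩, ⟨b, hb⟩))
  have : Finite Q := inferInstance
  have := Fintype.ofFinite Q
  have : Finite (Q →₀ K) := Finite.of_equiv _ Finsupp.equivFunOnFinite.symm
  have : Finite (MonoidAlgebra K Q) := Finite.of_equiv _ MonoidAlgebra.coeffEquiv.symm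
  have : Finite (Matrix S S (MonoidAlgebra K Q)) := inferInstanceAs (Finite (S → S → _))
  let ψ := MonoidAlgebra.mapDomainRingHom K φ
  have h1 : ψ.mapMatrix A * ψ.mapMatrix B = 1 := by rw [← map_mul, h, map_one]
  have h2 := finite_df h1
  rw [← map_mul, ← map_one ψ.mapMatrix] at h2
  have h3 : ψ d = 0 := by
    rw [hd, map_sub, sub_eq_zero]
    exact congrFun (congrFun h2 i) j
  have h4 : d.coeff = 0 := by
    refine Finsupp.mapDomain_injOn (T : Set G) hφ (fun _ h => h) (by simp) ?_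
    have := congrArg MonoidAlgebra.coeff h3
    simpa [ψ] using this
  exact sub_eq_zero.1 (MonoidAlgebra.coeff_eq_zero.1 h4)

section
variable {Λ G : Type} [Group G] {gl : Λ → G}

theorem cay_det : Det (Cay gl) := fun _ _ _ _ h h' => h.trans h'.symm

theorem cay_symm {ι : Λ → Λ} (hinv : ∀ a, gl (ι a) = (gl a)⁻¹) : Symm ι (Cay gl) := by
  rintro x a y rfl
  simp [Cay, hinv]

theorem path_cay_iff {x y : G} {w : List Λ} : Path (Cay gl) x w y ↔ y = ev gl w * x := by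
  induction w generalizing x with
  | nil => simp [path_nil_iff, ev, eq_comm]
  | cons a w ih => simp [path_cons_iff, ih, Cay, ev, mul_assoc]

theorem ev_append (w w' : List Λ) : ev gl (w ++ w') = ev gl w' * ev gl w := by
  induction w with
  | nil => simp [ev]
  | cons a w ih => simp [ev, ih, mul_assoc]

theorem exists_ev {ι : Λ → Λ} (hinv : ∀ a, gl (ι a) = (gl a)⁻¹)
    (hcl : Subgroup.closure (Set.range gl) = ⊤) (g : G) : ∃ w, g = ev gl w := by
  have hg : g ∈ Subgroup.closure (Set.range gl) := by rw [hcl]; trivial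
  induction hg using Subgroup.closure_induction with
  | mem x hx =>
    obtain ⟨a, rfl⟩ := hx
    exact ⟨[a], by simp [ev]⟩
  | one => exact ⟨[], rfl⟩
  | mul x y _ _ hx hy =>
    obtain ⟨w, rfl⟩ := hx
    obtain ⟨w', rfl⟩ := hy
    exact ⟨w' ++ w, (ev_append _ _).symm⟩
  | inv x _ hx =>
    obtain ⟨w, rfl⟩ := hx
    have h1 : Path (Cay gl) 1 w (ev gl w) := path_cay_iff.2 (by simp)
    have h2 := path_cay_iff.1 (h1.inv (cay_symm hinv))
    exact ⟨winv ι w, (eq_inv_of_mul_eq_one_left h2.symm).symm⟩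

/-- The Cayley graph carries a level structure around the identity, via a larger graph. -/
theorem cay_levels {V : Type} {ι : Λ → Λ} {Γ : V → Λ → V → Prop} {P g D : ℕ}
    (hΓ : Good ι Γ P g D) (hall : ∀ a, ∃ v v', Γ v a v') (hinv : ∀ a, gl (ι a) = (gl a)⁻¹)
    (hcl : Subgroup.closure (Set.range gl) = ⊤) (hfull : ∀ x v, Full Γ (Cay gl) x v)
    (hact : ∀ (Z : Type) (E : Z → Λ → Z → Prop), Symm ι E → Det E →
        (∀ z a, ∃ z', E z a z') → (∀ z v, Full Γ E z v) →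
        ∃ ρ : G →* Equiv.Perm Z, ∀ z a, E z a (ρ (gl a) z)) :
    ∃ (Z : Type) (E : Z → Λ → Z → Prop) (lev : Z → ℕ) (An : Z → Z → Prop) (Φ : G → Z)
      (ψ : Z → G), Levels ι Γ P D E lev An ∧ (∀ z, lev z = 0 ↔ z = Φ 1) ∧ Mor (Cay gl) E Φ ∧
      Mor E (Cay gl) ψ ∧ ∀ x, ψ (Φ x) = x := by
  obtain ⟨Z, E, j0, lev, An, hL, -, -, h0, huniv⟩ := exists_limit hΓ (X0 := Unit)
    (E0 := fun _ _ _ => False) ⟨fun _ _ _ h => h, fun _ _ _ _ h => h.elim, fun x v => Or.inr (by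
      intro w x' v' _ hp _
      cases hp with
      | nil => simp
      | cons h _ => exact h.elim)⟩
  obtain ⟨ψ, hψ, hψ0⟩ := huniv G (Cay gl) (fun _ => 1) ⟨1⟩ (cay_symm hinv) cay_det hfull
    (fun _ _ _ h => h.elim)
  obtain ⟨ρ, hρ⟩ := hact Z E hL.symm hL.det (hL.total hall) hL.full
  have hΦ : Mor (Cay gl) E (fun x => ρ x (j0 ())) := by
    rintro x a y rfl
    simp only [map_mul, Equiv.Perm.mul_apply]
    exact hρ _ _
  refine ⟨Z, E, lev, An, fun x => ρ x (j0 ()), ψ, hL, fun z => ?_, hΦ, hψ, fun x => ?_⟩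
  · rw [h0]
    simp only [map_one, Equiv.Perm.one_apply]
    exact ⟨fun ⟨_, h⟩ => h.symm, fun h => ⟨(), h.symm⟩⟩
  · obtain ⟨w, rfl⟩ := exists_ev hinv hcl x
    have h1 : Path (Cay gl) 1 w (ev gl w) := path_cay_iff.2 (by simp)
    have h2 := (h1.map _ hΦ).map _ hψ
    simp only [map_one, Equiv.Perm.one_apply, hψ0] at h2
    exact h2.det cay_det h1

theorem cay_thin {V Z : Type} {ι : Λ → Λ} {Γ : V → Λ → V → Prop} {P D : ℕ}
    (hι : ∀ a, ι (ι a) = a) {E : Z → Λ → Z → Prop} {lev : Z → ℕ} {An : Z → Z → Prop} {Φ : G → Z}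
    {ψ : Z → G} (hL : Levels ι Γ P D E lev An) (h0 : ∀ z, lev z = 0 ↔ z = Φ 1)
    (hΦ : Mor (Cay gl) E Φ) (hψ : Mor E (Cay gl) ψ) (hψΦ : ∀ x, ψ (Φ x) = x)
    {x y z p : G} {w1 w2 u v : List Λ} (hg : Geo (Cay gl) y (w1 ++ w2) z)
    (h1 : Path (Cay gl) y w1 p) (h2 : Path (Cay gl) p w2 z) (hu : Geo (Cay gl) z u x)
    (hv : Geo (Cay gl) x v y) :
    ∃ q, ((∃ t1 t2, u = t1 ++ t2 ∧ Path (Cay gl) z t1 q) ∨
        (∃ t1 t2, v = t1 ++ t2 ∧ Path (Cay gl) x t1 q)) ∧
      ∃ r : List Λ, r.length ≤ (40 * P + 1) * (2 * D + 1) ∧ Path (Cay gl) q r p := by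
  have hΦ' : Mor (Cay gl) E (fun x => Φ (x * p⁻¹)) := by
    rintro x a y rfl
    exact hΦ _ _ _ (mul_assoc _ _ _)
  have hψ' : Mor E (Cay gl) (fun z => ψ z * p) := by
    intro x a y h
    have := hψ _ _ _ h
    simp only [Cay] at this ⊢
    rw [this, mul_assoc]
  have back : ∀ {x : G} {w : List Λ} {q : Z}, Path E (Φ (x * p⁻¹)) w q →
      Path (Cay gl) x w (ψ q * p) := by
    intro x w q h
    simpa [hψΦ] using h.map _ hψ'
  have geo : ∀ {x y : G} {w : List Λ}, Geo (Cay gl) x w y → Geo E (Φ (x * p⁻¹)) w (Φ (y * p⁻¹)) := by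
    intro x y w h
    refine ⟨h.1.map _ hΦ', fun r hr => h.2 r ?_⟩
    simpa [hψΦ] using back hr
  have e1 := h1.map _ hΦ'
  have e2 := h2.map _ hΦ'
  simp only [mul_inv_cancel] at e1 e2
  obtain ⟨q, hq, r, hr, hqr⟩ := thin hL h0 hι (geo hg) e1 e2 (geo hu) (geo hv)
  refine ⟨ψ q * p, ?_, r, hr, ?_⟩
  · rcases hq with ⟨t1, t2, e, h⟩ | ⟨t1, t2, e, h⟩
    · exact Or.inl ⟨t1, t2, e, back h⟩
    · exact Or.inr ⟨t1, t2, e, back h⟩
  · simpa [hψΦ] using hqr.map _ hψ'

theorem walk_to_path {ι : Λ → Λ} (hinv : ∀ a, gl (ι a) = (gl a)⁻¹) {x y : G}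
    (p : (SimpleGraph.mulCayley (Set.range gl)).Walk x y) :
    ∃ w : List Λ, w.length = p.length ∧ Path (Cay gl) x⁻¹ w y⁻¹ ∧
      (∀ t1 t2 q, w = t1 ++ t2 → Path (Cay gl) x⁻¹ t1 q → q⁻¹ ∈ p.support) ∧
      ∀ c ∈ p.support, ∃ t1 t2, w = t1 ++ t2 ∧ Path (Cay gl) x⁻¹ t1 c⁻¹ ∧
        Path (Cay gl) c⁻¹ t2 y⁻¹ := by
  induction p with
  | nil =>
    refine ⟨[], rfl, Path.nil _, ?_, ?_⟩
    · intro t1 t2 q e h
      obtain rfl : t1 = [] := (List.append_eq_nil_iff.1 e.symm).1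
      rw [← path_nil_iff.1 h]
      simp
    · intro c hc
      simp at hc
      subst hc
      exact ⟨[], [], rfl, Path.nil _, Path.nil _⟩
  | @cons x x1 y hadj p ih =>
    obtain ⟨w, h1, h2, h3, h4⟩ := ih
    obtain ⟨a, ha⟩ : ∃ a, Cay gl x⁻¹ a x1⁻¹ := by
      obtain ⟨-, _, ⟨b, rfl⟩, h | h⟩ := (SimpleGraph.mulCayley_adj' _ _ _).1 hadj
      · exact ⟨ι b, by simp [Cay, hinv, ← h]⟩
      · exact ⟨b, by simp [Cay, h]⟩
    refine ⟨a :: w, by simp [h1], Path.cons ha h2, ?_, ?_⟩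
    · intro t1 t2 q e h
      cases t1 with
      | nil =>
        rw [← path_nil_iff.1 h]
        simp
      | cons b t1 =>
        simp at e
        obtain ⟨rfl, e⟩ := e
        obtain ⟨y1, e1, e2⟩ := path_cons_iff.1 h
        rw [cay_det _ _ _ _ e1 ha] at e2
        simp only [SimpleGraph.Walk.support_cons, List.mem_cons]
        exact Or.inr (h3 _ _ _ e e2)
    · intro c hc
      simp only [SimpleGraph.Walk.support_cons, List.mem_cons] at hc
      rcases hc with rfl | hc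
      · exact ⟨[], a :: w, rfl, Path.nil _, Path.cons ha h2⟩
      · obtain ⟨t1, t2, rfl, e1, e2⟩ := h4 c hc
        exact ⟨a :: t1, t2, rfl, Path.cons ha e1, e2⟩

theorem path_to_walk {x y : G} {w : List Λ} (h : Path (Cay gl) x w y) :
    ∃ p : (SimpleGraph.mulCayley (Set.range gl)).Walk x⁻¹ y⁻¹, p.length ≤ w.length := by
  induction h with
  | nil x => exact ⟨SimpleGraph.Walk.nil, le_rfl⟩
  | @cons x y z a w e _ ih =>
    obtain ⟨p, hp⟩ := ih
    by_cases hxy : x = y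
    · subst hxy
      exact ⟨p, by simp; omega⟩
    · have : (SimpleGraph.mulCayley (Set.range gl)).Adj x⁻¹ y⁻¹ := by
        refine (SimpleGraph.mulCayley_adj' _ _ _).2 ⟨by simpa using hxy, gl a, ⟨a, rfl⟩, Or.inr ?_⟩
        rw [show y = gl a * x from e]
        simp
      exact ⟨SimpleGraph.Walk.cons this p, by simpa using hp⟩

theorem dist_le_of_path {x y : G} {w : List Λ} (h : Path (Cay gl) x⁻¹ w y⁻¹) :
    (SimpleGraph.mulCayley (Set.range gl)).dist x y ≤ w.length := by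
  obtain ⟨p, hp⟩ := path_to_walk h
  have := SimpleGraph.dist_le p
  simp only [inv_inv] at this
  omega

theorem walk_thin {ι : Λ → Λ} (hinv : ∀ a, gl (ι a) = (gl a)⁻¹) {δ : ℕ}
    (hthin : ∀ {x y z p : G} {w1 w2 u v : List Λ}, Geo (Cay gl) y (w1 ++ w2) z →
      Path (Cay gl) y w1 p → Path (Cay gl) p w2 z → Geo (Cay gl) z u x → Geo (Cay gl) x v y →
      ∃ q, ((∃ t1 t2, u = t1 ++ t2 ∧ Path (Cay gl) z t1 q) ∨
        (∃ t1 t2, v = t1 ++ t2 ∧ Path (Cay gl) x t1 q)) ∧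
      ∃ r : List Λ, r.length ≤ δ ∧ Path (Cay gl) q r p)
    (x y z : G) (p : (SimpleGraph.mulCayley (Set.range gl)).Walk x y)
    (q : (SimpleGraph.mulCayley (Set.range gl)).Walk y z)
    (r : (SimpleGraph.mulCayley (Set.range gl)).Walk z x)
    (hp : p.length = (SimpleGraph.mulCayley (Set.range gl)).dist x y)
    (hq : q.length = (SimpleGraph.mulCayley (Set.range gl)).dist y z)
    (hr : r.length = (SimpleGraph.mulCayley (Set.range gl)).dist z x) :
    ∀ u ∈ p.support, ∃ v, (v ∈ q.support ∨ v ∈ r.support) ∧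
      (SimpleGraph.mulCayley (Set.range gl)).dist u v ≤ δ := by
  intro c hc
  obtain ⟨wp, p1, p2, -, p4⟩ := walk_to_path hinv p
  obtain ⟨wq, q1, q2, q3, -⟩ := walk_to_path hinv q
  obtain ⟨wr, r1, r2, r3, -⟩ := walk_to_path hinv r
  obtain ⟨t1, t2, rfl, e1, e2⟩ := p4 c hc
  obtain ⟨s, hs, w, hw, hsw⟩ := hthin
    ⟨p2, fun w hw => by rw [p1, hp]; exact dist_le_of_path hw⟩ e1 e2
    ⟨q2, fun w hw => by rw [q1, hq]; exact dist_le_of_path hw⟩
    ⟨r2, fun w hw => by rw [r1, hr]; exact dist_le_of_path hw⟩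
  refine ⟨s⁻¹, ?_, ?_⟩
  · rcases hs with ⟨a, b, e, h⟩ | ⟨a, b, e, h⟩
    · exact Or.inl (q3 _ _ _ e h)
    · exact Or.inr (r3 _ _ _ e h)
  · rw [SimpleGraph.dist_comm]
    exact (dist_le_of_path (by simpa using hsw)).trans hw

end

theorem main_hyp : ∃ (G : Type) (_ : Group G), Group.IsFinitelyPresented G ∧
    (∃ (S : Set G) (δ : ℕ), S.Finite ∧ Subgroup.closure S = ⊤ ∧
      ∀ (x y z : G) (p : (SimpleGraph.mulCayley S).Walk x y)
        (q : (SimpleGraph.mulCayley S).Walk y z) (r : (SimpleGraph.mulCayley S).Walk z x),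
        p.length = (SimpleGraph.mulCayley S).dist x y →
        q.length = (SimpleGraph.mulCayley S).dist y z →
        r.length = (SimpleGraph.mulCayley S).dist z x →
        ∀ u ∈ p.support, ∃ v, (v ∈ q.support ∨ v ∈ r.support) ∧
          (SimpleGraph.mulCayley S).dist u v ≤ δ) ∧ ¬ Group.ResiduallyFinite G := by
  obtain ⟨K, _, _, _, S, V, _, Γ, g, D, G, _, gl, hΓ, hall, hfp, hinv, hcl, hfull, hact, A, B,
    h1, h2⟩ := main_matrix 2
  obtain ⟨Z, E, lev, An, Φ, ψ, hL, h0, hΦ, hψ, hψΦ⟩ := cay_levels hΓ hall hinv hcl hfull hact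
  exact ⟨G, inferInstance, hfp, ⟨Set.range gl, _, Set.finite_range _, hcl,
    walk_thin hinv (cay_thin hΓ.invol hL h0 hΦ hψ hψΦ)⟩, fun _ => h2 (rf_stably_finite h1)⟩

end Vale.Agent.P186
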