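import Vale.Agent.P194.Limit

/-
Thin triangles from a level structure.
-/

namespace Vale.Agent.P186

open Vale.Agent.P194

section General
variable {Z Λ : Type} {E : Z → Λ → Z → Prop}

theorem res_and (hd : Det E) {p q r : Z → Prop} (h : ∀ z, p z → q z → r z) {x y : Z}
    {w : List Λ} (h1 : Path (Res E p) x w y) (h2 : Path (Res E q) x w y) :
    Path (Res E r) x w y := by
  induction h1 with
  | nil x => exact Path.nil _
  | cons e1 _ ih =>
    obtain ⟨y2, e3, e4⟩ := path_cons_iff.1 h2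
    obtain rfl := hd _ _ _ _ e1.1 e3.1
    exact Path.cons ⟨e1.1, h _ e1.2.1 e3.2.1, h _ e1.2.2 e3.2.2⟩ (ih e4)

theorem res_right (hd : Det E) {p : Z → Prop} {x y z : Z} {w w' : List Λ}
    (h : Path (Res E p) x (w ++ w') z) (h1 : Path E x w y) : Path (Res E p) y w' z := by
  obtain ⟨y', e1, e2⟩ := path_append_iff.1 h
  rw [h1.det hd e1.of_res]
  exact e2

theorem res_or (p : Z → Prop) {x y : Z} {w : List Λ} (h : Path E x w y) :
    (Path (Res E p) x w y ∧ p x) ∨
      ∃ w1 w2 q, w = w1 ++ w2 ∧ Path E x w1 q ∧ Path E q w2 y ∧ ¬ p q := by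
  induction h with
  | nil x =>
    by_cases hx : p x
    · exact Or.inl ⟨Path.nil _, hx⟩
    · exact Or.inr ⟨[], [], x, rfl, Path.nil _, Path.nil _, hx⟩
  | @cons x y z a w e1 e2 ih =>
    by_cases hx : p x
    · rcases ih with ⟨h1, h2⟩ | ⟨w1, w2, q, rfl, h1, h2, h3⟩
      · exact Or.inl ⟨Path.cons ⟨e1, hx, h2⟩ h1, hx⟩
      · exact Or.inr ⟨a :: w1, w2, q, rfl, Path.cons e1 h1, h2, h3⟩
    · exact Or.inr ⟨[], a :: w, x, rfl, Path.nil _, Path.cons e1 e2, hx⟩

/-- The path ends at its first point of level `n`. -/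
inductive First (E : Z → Λ → Z → Prop) (lev : Z → ℕ) (n : ℕ) : Z → List Λ → Z → Prop
  | here {z : Z} : lev z = n → First E lev n z [] z
  | cons {z z1 y : Z} {a : Λ} {w : List Λ} :
      n < lev z → E z a z1 → First E lev n z1 w y → First E lev n z (a :: w) y

/-- Iterated anchors. -/
inductive Pr (lev : Z → ℕ) (An : Z → Z → Prop) (z : Z) : ℕ → Z → Prop
  | refl : Pr lev An z (lev z) z
  | step {n : ℕ} {y x : Z} : Pr lev An z (n + 1) y → An y x → Pr lev An z n x

/-- Joined by a short path inside one level. -/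
def Jn (E : Z → Λ → Z → Prop) (lev : Z → ℕ) (n c : ℕ) (x x' : Z) : Prop :=
  ∃ r : List Λ, r.length ≤ c ∧ Path (Res E (lev · = n)) x r x'

theorem First.path {lev : Z → ℕ} {n : ℕ} {z y : Z} {w : List Λ} (h : First E lev n z w y) :
    Path E z w y := by
  induction h with
  | here _ => exact Path.nil _
  | cons _ e _ ih => exact Path.cons e ih

theorem First.lev_eq {lev : Z → ℕ} {n : ℕ} {z y : Z} {w : List Λ} (h : First E lev n z w y) :
    lev y = n := by
  induction h with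
  | here h => exact h
  | cons _ _ _ ih => exact ih

theorem First.le {lev : Z → ℕ} {n : ℕ} {z y : Z} {w : List Λ} (h : First E lev n z w y) :
    n ≤ lev z := by
  cases h with
  | here h => exact h.ge
  | cons h _ _ => exact h.le

theorem First.last (hd : Det E) {lev : Z → ℕ} {n : ℕ} {z y : Z} {w : List Λ}
    (h : First E lev n z w y) (hp : Path (Res E (lev · ≤ n + 1)) z w y) (hz : lev z = n + 1) :
    ∃ w3 a z1, w = w3 ++ [a] ∧ Path (Res E (lev · = n + 1)) z w3 z1 ∧ E z1 a y := by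
  induction h with
  | here h => omega
  | @cons z z1 y a w h1 e h2 ih =>
    obtain ⟨z2, e1, e2⟩ := path_cons_iff.1 hp
    obtain rfl := hd _ _ _ _ e e1.1
    by_cases hz1 : lev z1 = n + 1
    · obtain ⟨w3, b, z3, rfl, q1, q2⟩ := ih e2 hz1
      exact ⟨a :: w3, b, z3, rfl, Path.cons ⟨e, hz, hz1⟩ q1, q2⟩
    · cases h2 with
      | here h => exact ⟨[], a, z, rfl, Path.nil _, e⟩
      | cons h _ _ =>
        have : lev z1 ≤ n + 1 := e1.2.2
        omega

theorem Jn.trans {lev : Z → ℕ} {n c c' : ℕ} {x y z : Z} (h : Jn E lev n c x y)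
    (h' : Jn E lev n c' y z) : Jn E lev n (c + c') x z := by
  obtain ⟨r, h1, h2⟩ := h
  obtain ⟨r', h3, h4⟩ := h'
  exact ⟨_, by simp; omega, h2.append h4⟩

theorem Jn.symm {ι : Λ → Λ} (hs : Symm ι E) {lev : Z → ℕ} {n c : ℕ} {x y : Z}
    (h : Jn E lev n c x y) : Jn E lev n c y x := by
  obtain ⟨r, h1, h2⟩ := h
  exact ⟨_, by simpa using h1, h2.inv (hs.res _)⟩

theorem Jn.mono {lev : Z → ℕ} {n c c' : ℕ} {x y : Z} (h : Jn E lev n c x y) (hc : c ≤ c') :
    Jn E lev n c' x y := by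
  obtain ⟨r, h1, h2⟩ := h
  exact ⟨r, h1.trans hc, h2⟩

end General

section
variable {Z Λ V : Type} {ι : Λ → Λ} {Γ : V → Λ → V → Prop} {P D : ℕ} {E : Z → Λ → Z → Prop}
  {lev : Z → ℕ} {An : Z → Z → Prop} (hL : Levels ι Γ P D E lev An) {p : Z}
  (hp : ∀ z, lev z = 0 ↔ z = p)
include hL

theorem lev_path {x y : Z} {w : List Λ} (h : Path E x w y) : lev y ≤ lev x + w.length := by
  induction h with
  | nil x => simp
  | cons e _ ih =>
    have := hL.lip _ _ _ e
    simp
    omega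

theorem exists_first {n : ℕ} {z y0 : Z} {w : List Λ} (h : Path E z w y0) (h0 : lev y0 ≤ n)
    (hz : n ≤ lev z) : ∃ w1 w2 y, w = w1 ++ w2 ∧ First E lev n z w1 y ∧ Path E y w2 y0 := by
  induction h with
  | nil x => exact ⟨[], [], x, rfl, First.here (by omega), Path.nil _⟩
  | @cons x y z a w e1 e2 ih =>
    by_cases hx : lev x = n
    · exact ⟨[], a :: w, x, rfl, First.here hx, Path.cons e1 e2⟩
    · have := hL.lip _ _ _ (hL.symm _ _ _ e1)
      obtain ⟨w1, w2, y', rfl, q1, q2⟩ := ih h0 (by omega)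
      exact ⟨a :: w1, w2, y', rfl, First.cons (by omega) e1 q1, q2⟩

theorem First.split {n : ℕ} {z y : Z} {w : List Λ} (h : First E lev n z w y) (hz : n < lev z) :
    ∃ w1 w2 y', w = w1 ++ w2 ∧ First E lev (n + 1) z w1 y' ∧ First E lev n y' w2 y := by
  induction h with
  | here h => omega
  | @cons z z1 y a w h1 e h2 ih =>
    by_cases hx : lev z = n + 1
    · exact ⟨[], a :: w, z, rfl, First.here hx, First.cons h1 e h2⟩
    · have := hL.lip _ _ _ (hL.symm _ _ _ e)
      obtain ⟨w1, w2, y', rfl, q1, q2⟩ := ih (by omega)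
      exact ⟨a :: w1, w2, y', rfl, First.cons (by omega) e q1, q2⟩

theorem Pr.lev_eq {z x : Z} {n : ℕ} (h : Pr lev An z n x) : lev x = n ∧ n ≤ lev z := by
  induction h with
  | refl => exact ⟨rfl, le_rfl⟩
  | step _ a ih =>
    have := hL.an_lev _ _ a
    omega

theorem Pr.inv {z x : Z} {n : ℕ} (h : Pr lev An z n x) (hn : n < lev z) :
    ∃ y, Pr lev An z (n + 1) y ∧ An y x := by
  cases h with
  | refl => omega
  | step h a => exact ⟨_, h, a⟩

theorem Pr.eq {z x : Z} {n : ℕ} (h : Pr lev An z n x) (hn : lev z = n) : x = z := by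
  cases h with
  | refl => rfl
  | step h a =>
    have := (h.lev_eq hL).2
    omega

theorem close_short {n : ℕ} {z z' x x' : Z} (h : Jn E lev (n + 1) (24 * P) z z')
    (hz : lev z = n + 1) (a : An z x) (a' : An z' x') : Jn E lev n (8 * P) x x' := by
  obtain ⟨r, h1, h2⟩ := h
  exact hL.an_close n z r z' x x' h2 hz (Or.inl h1) a a'

include hp

theorem anc_exists {z : Z} (hc : ∃ w, Path E z w p) (hz : 0 < lev z) : ∃ x, An z x := by
  obtain ⟨w, hw⟩ := hc
  obtain ⟨w', hg⟩ := exists_geo hw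
  have h0 := (hp p).2 rfl
  have := hL.conv (lev z) _ _ _ hg le_rfl (by omega)
  cases this with
  | nil => omega
  | cons e _ => exact hL.an_ex _ _ _ e.1 e.2.2 hz

theorem down_one {z : Z} {n : ℕ} (hc : ∃ w, Path E z w p) (hz : lev z = n + 1) :
    ∃ w3 a z1 y, Path (Res E (lev · = n + 1)) z w3 z1 ∧ Geo E z w3 z1 ∧ E z1 a y ∧ lev y = n ∧
      ∃ w, Path E y w p := by
  obtain ⟨w, hw⟩ := hc
  obtain ⟨w', hg⟩ := exists_geo hw
  have h0 := (hp p).2 rfl
  obtain ⟨w1, w2, y, rfl, q1, q2⟩ := exists_first hL (n := n) hg.1 (by omega) (by omega)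
  have hg1 := hg.left q1.path q2
  have := hL.conv (n + 1) _ _ _ hg1 hz.le (by rw [q1.lev_eq]; omega)
  obtain ⟨w3, a, z1, rfl, q3, q4⟩ := q1.last hL.det this hz
  exact ⟨w3, a, z1, y, q3, hg1.left q3.of_res (Path.single q4), q4, q1.lev_eq, w2, q2⟩

theorem anc_con {z x : Z} (hc : ∃ w, Path E z w p) (a : An z x) : ∃ w, Path E x w p := by
  have h1 := hL.an_lev _ _ a
  obtain ⟨w3, b, z1, y, q1, q2, q3, q4, w, q5⟩ := down_one hL hp hc h1.symm
  have h2 : lev z1 = lev x + 1 := q1.res_end h1.symm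
  obtain ⟨r, -, hr⟩ := hL.an_close _ _ _ _ x y q1 h1.symm (Or.inr q2) a
    (hL.an_adj _ _ _ q3 (by omega))
  exact ⟨_, hr.of_res.append q5⟩

theorem pr_exists {z : Z} (hc : ∃ w, Path E z w p) (k : ℕ) :
    ∀ n, n + k = lev z → ∃ x, Pr lev An z n x ∧ ∃ w, Path E x w p := by
  induction k with
  | zero =>
    intro n hn
    obtain rfl : n = lev z := by omega
    exact ⟨z, Pr.refl, hc⟩
  | succ k ih =>
    intro n hn
    obtain ⟨y, h1, h2⟩ := ih (n + 1) (by omega)
    obtain ⟨x, hx⟩ := anc_exists hL hp h2 (by have := (h1.lev_eq hL).1; omega)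
    exact ⟨x, Pr.step h1 hx, anc_con hL hp h2 hx⟩

theorem radius (n : ℕ) : ∀ z, (∃ w, Path E z w p) → lev z = n →
    ∃ w : List Λ, w.length ≤ n * (2 * D + 1) ∧ Path E z w p := by
  induction n with
  | zero =>
    intro z _ hz
    rw [(hp z).1 hz]
    exact ⟨[], by simp, Path.nil _⟩
  | succ n ih =>
    intro z hc hz
    obtain ⟨w3, b, z1, y, q1, q2, q3, q4, q5⟩ := down_one hL hp hc hz
    obtain ⟨w, h1, h2⟩ := ih y q5 q4
    have := hL.bdd _ _ _ _ q1 q2
    refine ⟨_, ?_, q2.1.append (Path.cons q3 h2)⟩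
    simp
    nlinarith

theorem proj_first (k : ℕ) : ∀ n z w y x, lev z = n + k → First E lev n z w y → Geo E z w y →
    (∃ w, Path E y w p) → Pr lev An z n x → Jn E lev n (16 * P) x y := by
  induction k with
  | zero =>
    intro n z w y x hz hf _ _ hx
    rw [hx.eq hL hz]
    cases hf with
    | here _ => exact ⟨[], by simp, Path.nil _⟩
    | cons h _ _ => omega
  | succ k ih =>
    intro n z w y x hz hf hg hc hx
    obtain ⟨w1, w2, y', rfl, f1, f2⟩ := hf.split hL (by omega)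
    obtain ⟨x', hx', ax⟩ := hx.inv hL (by omega)
    obtain ⟨w0, hw0⟩ := hc
    have hc' : ∃ w, Path E y' w p := ⟨_, f2.path.append hw0⟩
    have j1 := ih (n + 1) z w1 y' x' (by omega) f1 (hg.left f1.path f2.path) hc' hx'
    have hg2 := hg.right f1.path f2.path
    have hy' := f1.lev_eq
    have hy := f2.lev_eq
    obtain ⟨w3, a, z1, rfl, q3, q4⟩ := f2.last hL.det
      (hL.conv (n + 1) _ _ _ hg2 hy'.le (by omega)) hy'
    obtain ⟨y'', ay⟩ := anc_exists hL hp hc' (by omega)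
    have h2 : lev z1 = n + 1 := q3.res_end hy'
    have j2 := close_short hL (j1.mono (by omega)) (hx'.lev_eq hL).1 ax ay
    have j3 : Jn E lev n (8 * P) y'' y := hL.an_close _ _ _ _ _ _ q3 hy'
      (Or.inr (hg2.left q3.of_res (Path.single q4))) ay (hL.an_adj _ _ _ q4 (by omega))
    exact (j2.trans j3).mono (by omega)

theorem proj_geo (hι : ∀ a, ι (ι a) = a) (k : ℕ) : ∀ n z w z' x x', lev z ≤ n + k →
    Geo E z w z' → Path (Res E (n < lev ·)) z w z' → n < lev z → (∃ w, Path E z w p) →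
    Pr lev An z n x → Pr lev An z' n x' → Jn E lev n (24 * P) x x' := by
  induction k with
  | zero =>
    intro n z w z' x x' h1 _ _ h2
    omega
  | succ k ih =>
    intro n z w z' x x' hk hg hr hz hc hx hx'
    have hz' : n < lev z' := hr.res_end hz
    obtain ⟨x1, hx1, a1⟩ := hx.inv hL hz
    obtain ⟨x2, hx2, a2⟩ := hx'.inv hL hz'
    rcases res_or (n + 1 < lev ·) hg.1 with ⟨h1, h2⟩ | ⟨u1, u2, q, rfl, h1, h2, h3⟩
    · have := ih (n + 1) z w z' x1 x2 (by omega) hg h1 h2 hc hx1 hx2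
      exact (close_short hL this (hx1.lev_eq hL).1 a1 a2).mono (by omega)
    · obtain ⟨w1, w2, y1, rfl, f1, q1⟩ := exists_first hL (n := n + 1) h1 (by omega) (by omega)
      have q2 := q1.append h2
      rw [List.append_assoc] at hg hr
      generalize w2 ++ u2 = t at hg hr q2
      have hy1 := f1.lev_eq
      obtain ⟨w3, w4, y2, e, f2, q3⟩ := exists_first hL (n := n + 1) (q2.inv hL.symm) hy1.le
        (by omega)
      have hy2 := f2.lev_eq
      have hgt := (hg.right f1.path q2).inv hL.symm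
      have hrt := (res_right hL.det hr f1.path).inv (hL.symm.res _)
      rw [e] at hgt hrt
      have hg4 := hgt.right f2.path q3
      have hr4 := res_right hL.det hrt f2.path
      have hlev : Path (Res E (lev · = n + 1)) y2 w4 y1 :=
        res_and hL.det (fun z a b => by omega) hr4 (hL.conv (n + 1) _ _ _ hg4 hy2.le hy1.le)
      obtain ⟨w0, hw0⟩ := hc
      have c1 : ∃ w, Path E y1 w p := ⟨_, (f1.path.inv hL.symm).append hw0⟩
      have c2 : ∃ w, Path E y2 w p := ⟨_, q3.append ((f1.path.inv hL.symm).append hw0)⟩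
      obtain ⟨k1, hk1⟩ := Nat.exists_eq_add_of_le f1.le
      obtain ⟨k2, hk2⟩ := Nat.exists_eq_add_of_le f2.le
      have j1 := proj_first hL hp k1 _ _ _ _ _ hk1 f1 (hg.left f1.path q2) c1 hx1
      have j2 := proj_first hL hp k2 _ _ _ _ _ hk2 f2 (hgt.left f2.path q3) c2 hx2
      obtain ⟨b1, ab1⟩ := anc_exists hL hp c1 (by omega)
      obtain ⟨b2, ab2⟩ := anc_exists hL hp c2 (by omega)
      have s1 := close_short hL (j1.mono (by omega)) (hx1.lev_eq hL).1 a1 ab1
      have s2 := close_short hL (j2.mono (by omega)) (hx2.lev_eq hL).1 a2 ab2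
      have s3 : Jn E lev n (8 * P) b2 b1 :=
        hL.an_close _ _ _ _ _ _ hlev hy2 (Or.inr hg4) ab2 ab1
      exact ((s1.trans (s3.symm hL.symm)).trans (s2.symm hL.symm)).mono (by omega)

theorem thin (hι : ∀ a, ι (ι a) = a) {x y z : Z} {w1 w2 u v : List Λ}
    (hg : Geo E y (w1 ++ w2) z) (h1 : Path E y w1 p) (h2 : Path E p w2 z) (hu : Geo E z u x)
    (hv : Geo E x v y) :
    ∃ q, ((∃ t1 t2, u = t1 ++ t2 ∧ Path E z t1 q) ∨ (∃ t1 t2, v = t1 ++ t2 ∧ Path E x t1 q)) ∧
      ∃ r : List Λ, r.length ≤ (40 * P + 1) * (2 * D + 1) ∧ Path E q r p := by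
  obtain ⟨N, hN⟩ : ∃ N, N = 40 * P + 1 := ⟨_, rfl⟩
  rw [← hN]
  have h0 := (hp p).2 rfl
  have cy : ∃ w, Path E y w p := ⟨_, h1⟩
  have cz : ∃ w, Path E z w p := ⟨_, h2.inv hL.symm⟩
  have cx : ∃ w, Path E x w p := ⟨_, hv.1.append h1⟩
  have fin : ∀ q, (∃ w, Path E q w p) → ¬ N < lev q →
      ∃ r : List Λ, r.length ≤ N * (2 * D + 1) ∧ Path E q r p := by
    intro q hq hl
    obtain ⟨r, r1, r2⟩ := radius hL hp _ q hq rfl
    exact ⟨r, r1.trans (Nat.mul_le_mul_right _ (by omega)), r2⟩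
  rcases res_or (N < lev ·) hu.1 with ⟨a1, a2⟩ | ⟨t1, t2, q, e, b1, b2, b3⟩
  swap
  · obtain ⟨w, hw⟩ := cx
    exact ⟨q, Or.inl ⟨t1, t2, e, b1⟩, fin q ⟨_, b2.append hw⟩ b3⟩
  rcases res_or (N < lev ·) hv.1 with ⟨a3, a4⟩ | ⟨t1, t2, q, e, b1, b2, b3⟩
  swap
  · exact ⟨q, Or.inr ⟨t1, t2, e, b1⟩, fin q ⟨_, b2.append h1⟩ b3⟩
  exfalso
  have a5 : N < lev y := a3.res_end a4
  obtain ⟨px, hpx, -⟩ := pr_exists hL hp cx (lev x - N) N (by omega)
  obtain ⟨py, hpy, -⟩ := pr_exists hL hp cy (lev y - N) N (by omega)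
  obtain ⟨pz, hpz, -⟩ := pr_exists hL hp cz (lev z - N) N (by omega)
  have j1 := proj_geo hL hp hι (lev z) N _ _ _ _ _ (by omega) hu a1 a2 cz hpz hpx
  have j2 := proj_geo hL hp hι (lev x) N _ _ _ _ _ (by omega) hv a3 a4 cx hpx hpy
  obtain ⟨s1, s2, yN, rfl, f1, q1⟩ := exists_first hL (n := N) h1 (by omega) (by omega)
  obtain ⟨s3, s4, zN, e, f2, q2⟩ := exists_first hL (n := N) (h2.inv hL.symm) (by omega)
    (by omega)
  have g1 : Geo E y (s1 ++ (s2 ++ w2)) z := by rwa [← List.append_assoc]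
  have g2 := (g1.right f1.path (q1.append h2)).inv hL.symm
  rw [winv_append, e, List.append_assoc] at g2
  have q3 := q2.append (q1.inv hL.symm)
  have g3 := g2.right f2.path q3
  have j3 := proj_first hL hp (lev y - N) N _ _ _ _ (by omega) f1
    (g1.left f1.path (q1.append h2)) ⟨_, q1⟩ hpy
  have j4 := proj_first hL hp (lev z - N) N _ _ _ _ (by omega) f2 (g2.left f2.path q3) ⟨_, q2⟩ hpz
  obtain ⟨r, r1, r2⟩ := (((j4.symm hL.symm).trans j1).trans j2).trans j3
  have l1 := g3.2 _ r2.of_res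
  have l2 := lev_path hL (q1.inv hL.symm)
  have l3 := lev_path hL (q2.inv hL.symm)
  have l4 := f1.lev_eq
  have l5 := f2.lev_eq
  simp at l1 l2 l3
  omega

end

end Vale.Agent.P186
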